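import Crest.Agent.Helper13.Shuffle.GapGeneric

/-!
# S0222 pre-build (GAP), helper13: the recursion step

`stepStmt_of : JohnsonStmt ι → LemmaAStmt ι → StepStmt ι`: the four-block argument
(referee report notes/s0222/helper54_referee_gap.md, section 2, simplified: only the two
row-averaging projections are used).
-/

set_option autoImplicit false
set_option linter.unusedSectionVars false

namespace Crest.Agent.Helper13.Gap

open Finset

variable {ι : Type*} [Fintype ι] [DecidableEq ι]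

/-! ### The row permutations -/

theorem rowsE_mul (σ0 σ1 τ0 τ1 : Equiv.Perm ι) :
    rowsE σ0 σ1 * rowsE τ0 τ1 = rowsE (σ0 * τ0) (σ1 * τ1) := by
  apply Equiv.ext
  rintro ⟨y, b⟩
  cases b <;> simp [Equiv.Perm.mul_apply]

theorem rowsE_one : rowsE (1 : Equiv.Perm ι) 1 = 1 := by
  apply Equiv.ext
  rintro ⟨y, b⟩
  cases b <;> simp

/-- Permutations of the top row (row `false`). -/
def rhoT : Equiv.Perm ι →* Equiv.Perm (ι × Bool) where
  toFun σ := rowsE σ 1
  map_one' := rowsE_one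
  map_mul' σ τ := by rw [rowsE_mul, mul_one]

/-- Permutations of the bottom row (row `true`). -/
def rhoB : Equiv.Perm ι →* Equiv.Perm (ι × Bool) where
  toFun σ := rowsE 1 σ
  map_one' := rowsE_one
  map_mul' σ τ := by rw [rowsE_mul, mul_one]

theorem rhoT_def (σ : Equiv.Perm ι) : rhoT σ = rowsE σ 1 := rfl

theorem rhoB_def (σ : Equiv.Perm ι) : rhoB σ = rowsE 1 σ := rfl

theorem rowsE_eq (σ τ : Equiv.Perm ι) : rowsE σ τ = rhoT σ * rhoB τ := by
  rw [rhoT_def, rhoB_def, rowsE_mul, mul_one, one_mul]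

theorem rho_comm (σ τ : Equiv.Perm ι) : rhoT σ * rhoB τ = rhoB τ * rhoT σ := by
  rw [rhoT_def, rhoB_def, rowsE_mul, rowsE_mul, mul_one, one_mul, mul_one, one_mul]

theorem rho_comm' (σ τ : Equiv.Perm ι) : rhoB σ * rhoT τ = rhoT τ * rhoB σ :=
  (rho_comm τ σ).symm

/-- The permutations of row `b`. -/
def rowHom (b : Bool) : Equiv.Perm ι →* Equiv.Perm (ι × Bool) :=
  match b with
  | false => rhoT
  | true => rhoB

theorem rowHom_apply (b : Bool) (σ : Equiv.Perm ι) (y : ι) : rowHom b σ (y, b) = (σ y, b) := by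
  cases b
  · show rowsE σ 1 (y, false) = (σ y, false)
    simp
  · show rowsE 1 σ (y, true) = (σ y, true)
    simp

/-! ### The global flip of the two rows -/

/-- Exchange the two rows. -/
def flipE : Equiv.Perm (ι × Bool) := swapE (fun _ => true)

theorem flipE_apply (p : ι × Bool) : (flipE : Equiv.Perm (ι × Bool)) p = (p.1, !p.2) := by
  rcases p with ⟨y, b⟩
  cases b <;> rfl

theorem flipE_mul_self : (flipE : Equiv.Perm (ι × Bool)) * flipE = 1 := by
  apply Equiv.ext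
  rintro ⟨y, b⟩
  cases b <;> rfl

theorem rhoT_mul_flipE (σ : Equiv.Perm ι) : rhoT σ * flipE = flipE * rhoB σ := by
  apply Equiv.ext
  rintro ⟨y, b⟩
  cases b <;> rfl

theorem rhoB_mul_flipE (σ : Equiv.Perm ι) : rhoB σ * flipE = flipE * rhoT σ := by
  apply Equiv.ext
  rintro ⟨y, b⟩
  cases b <;> rfl

theorem swapE_mul_flipE (s : ι → Bool) : swapE s * flipE = flipE * swapE s := by
  apply Equiv.ext
  rintro ⟨y, b⟩
  cases b <;> cases h : s y <;> simp [flipE, Equiv.Perm.mul_apply, h]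

/-- Composition with the flip. -/
def flipF (f : Equiv.Perm (ι × Bool) → ℝ) : Equiv.Perm (ι × Bool) → ℝ := fun c => f (c * flipE)

theorem sum_flipF_sq (f : Equiv.Perm (ι × Bool) → ℝ) :
    ∑ c, (flipF f c) ^ 2 = ∑ c, (f c) ^ 2 :=
  sum_mulRight flipE (fun c => (f c) ^ 2)

/-! ### The operators `opW`, `opE` -/

theorem opW_eq (ν : Equiv.Perm ι → ℝ) (f : Equiv.Perm (ι × Bool) → ℝ) :
    opW ν f = opR rhoT ν (opR rhoB ν f) := by
  funext c
  unfold opW opR
  apply Finset.sum_congr rfl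
  intro σ0 _
  rw [Finset.mul_sum]
  apply Finset.sum_congr rfl
  intro σ1 _
  rw [mul_assoc c, ← rowsE_eq]
  ring

theorem opE_eq (f : Equiv.Perm (ι × Bool) → ℝ) (c : Equiv.Perm (ι × Bool)) :
    opE f c = ∑ s : ι → Bool, (1 / (2 : ℝ) ^ Fintype.card ι) * f (c * swapE s) := by
  unfold opE
  rw [Finset.sum_div]
  apply Finset.sum_congr rfl
  intro s _
  ring

theorem opE_add (f g : Equiv.Perm (ι × Bool) → ℝ) : opE (f + g) = opE f + opE g := by
  funext c
  simp only [opE, Pi.add_apply, Finset.sum_add_distrib, add_div]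

theorem sum_swap_weights :
    ∑ _s : ι → Bool, (1 / (2 : ℝ) ^ Fintype.card ι) = 1 := by
  rw [Finset.sum_const, Finset.card_univ, Fintype.card_fun, Fintype.card_bool, nsmul_eq_mul]
  have h : ((2 : ℝ) ^ Fintype.card ι) ≠ 0 := by positivity
  push_cast
  field_simp

theorem opE_sq_le (f : Equiv.Perm (ι × Bool) → ℝ) :
    ∑ c, (opE f c) ^ 2 ≤ ∑ c, (f c) ^ 2 := by
  have h := Crest.Agent.Helper3.Shuffle.sum_sq_mix_le
    (fun _ : ι → Bool => (1 / (2 : ℝ) ^ Fintype.card ι)) (fun _ => by positivity)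
    (fun s : ι → Bool => Equiv.mulRight (swapE s)) f
  rw [sum_swap_weights, one_pow, one_mul] at h
  refine le_trans (le_of_eq ?_) h
  apply Finset.sum_congr rfl
  intro c _
  rw [opE_eq]
  rfl

theorem opE_flipF (f : Equiv.Perm (ι × Bool) → ℝ) : opE (flipF f) = flipF (opE f) := by
  funext c
  unfold opE flipF
  congr 1
  apply Finset.sum_congr rfl
  intro s _
  rw [mul_assoc c, swapE_mul_flipE, ← mul_assoc c]

/-! ### Two small analytic lemmas -/

theorem sq_add_le {α : Type*} [Fintype α] (v w : α → ℝ) (a b s t : ℝ)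
    (ha : 0 ≤ a) (hb : 0 ≤ b) (hs : 0 ≤ s) (ht : 0 ≤ t)
    (hv : ∑ x, (v x) ^ 2 ≤ a * s) (hw : ∑ x, (w x) ^ 2 ≤ b * t) :
    ∑ x, (v x + w x) ^ 2 ≤ (a + b) * (s + t) := by
  have hcs := Finset.sum_mul_sq_le_sq_mul_sq (Finset.univ : Finset α) v w
  have hv0 : 0 ≤ ∑ x, (v x) ^ 2 := Finset.sum_nonneg (fun x _ => sq_nonneg _)
  have hw0 : 0 ≤ ∑ x, (w x) ^ 2 := Finset.sum_nonneg (fun x _ => sq_nonneg _)
  have hX : (∑ x, v x * w x) ^ 2 ≤ (a * s) * (b * t) :=
    hcs.trans (mul_le_mul hv hw hw0 (mul_nonneg ha hs))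
  have h2 : 2 * ∑ x, v x * w x ≤ a * t + b * s := by
    have hnn : 0 ≤ a * t + b * s := by positivity
    by_contra hcon
    have hcon' : a * t + b * s < 2 * ∑ x, v x * w x := lt_of_not_ge hcon
    nlinarith [sq_nonneg (a * t - b * s)]
  have hexp : ∑ x, (v x + w x) ^ 2 =
      ∑ x, (v x) ^ 2 + 2 * ∑ x, v x * w x + ∑ x, (w x) ^ 2 := by
    rw [Finset.mul_sum, ← Finset.sum_add_distrib, ← Finset.sum_add_distrib]
    apply Finset.sum_congr rfl
    intro x _
    ring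
  rw [hexp]
  nlinarith

theorem sum_zero_of_unif {G H : Type*} [Group G] [Fintype G] [Group H] [Fintype H]
    (ρ : G →* H) (h : H → ℝ) (hh : opR ρ (unif G) h = 0) (c : H) :
    ∑ g : G, h (c * ρ g) = 0 := by
  have h1 := congrFun hh c
  unfold opR unif at h1
  rw [← Finset.mul_sum] at h1
  have hpos : (0 : ℝ) < (Fintype.card G : ℝ) := by
    have := Fintype.card_pos (α := G)
    positivity
  have h2 : (1 / (Fintype.card G : ℝ)) ≠ 0 := by positivity
  simpa [h2] using h1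

theorem unif_zero_of_sum {G H : Type*} [Group G] [Fintype G] [Group H] [Fintype H]
    (ρ : G →* H) (h : H → ℝ) (hh : ∀ c : H, ∑ g : G, h (c * ρ g) = 0) :
    opR ρ (unif G) h = 0 := by
  funext c
  unfold opR unif
  rw [← Finset.mul_sum, hh c, mul_zero]
  rfl

/-! ### Orthogonality to the one-card functions -/

theorem ortho_row (b : Bool) (ν : Equiv.Perm ι → ℝ)
    (H1 : ∀ y z : ι, ∑ σ : Equiv.Perm ι, (if σ y = z then ν σ else 0) =
      1 / (Fintype.card ι : ℝ))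
    (h : Equiv.Perm (ι × Bool) → ℝ)
    (hh : ∀ c, ∑ σ : Equiv.Perm ι, h (c * rowHom b σ) = 0) (y : ι) (a : ι × Bool) :
    ∑ c : Equiv.Perm (ι × Bool), (if c (y, b) = a then opR (rowHom b) ν h c else 0) = 0 := by
  classical
  -- the function "card `a` lies in row `b`"
  set t : Equiv.Perm (ι × Bool) → ℝ := fun c => ∑ z : ι, (if c (z, b) = a then (1 : ℝ) else 0)
    with ht
  have ht_inv : ∀ (σ : Equiv.Perm ι) (c : Equiv.Perm (ι × Bool)), t (c * rowHom b σ) = t c := by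
    intro σ c
    simp only [ht]
    have := Equiv.sum_comp σ (fun z : ι => (if c (z, b) = a then (1 : ℝ) else 0))
    rw [← this]
    apply Finset.sum_congr rfl
    intro z _
    rw [Equiv.Perm.mul_apply, rowHom_apply]
  have hth : ∑ c, h c * t c = 0 := by
    have e1 : opR (rowHom b) (unif (Equiv.Perm ι)) t = t :=
      opR_of_inv (rowHom b) _ sum_unif t ht_inv
    have e2 : opR (rowHom b) (unif (Equiv.Perm ι)) h = 0 := unif_zero_of_sum (rowHom b) h hh
    have e3 := opR_unif_selfadj (rowHom b) h t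
    rw [e1, e2] at e3
    simpa using e3.symm
  -- rewrite the left-hand side
  have e0 : ∀ c : Equiv.Perm (ι × Bool),
      (if c (y, b) = a then opR (rowHom b) ν h c else 0) =
        ∑ σ : Equiv.Perm ι, (if c (y, b) = a then (1 : ℝ) else 0) * (ν σ * h (c * rowHom b σ)) := by
    intro c
    rw [← Finset.mul_sum]
    unfold opR
    split_ifs <;> simp
  simp_rw [e0]
  rw [Finset.sum_comm]
  have e1 : ∀ σ : Equiv.Perm ι,
      ∑ c : Equiv.Perm (ι × Bool),
        (if c (y, b) = a then (1 : ℝ) else 0) * (ν σ * h (c * rowHom b σ)) =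
      ∑ c : Equiv.Perm (ι × Bool),
        ν σ * ((if c (σ⁻¹ y, b) = a then (1 : ℝ) else 0) * h c) := by
    intro σ
    have hs := sum_mulRight (rowHom b σ)
      (fun c => ν σ * ((if c (σ⁻¹ y, b) = a then (1 : ℝ) else 0) * h c))
    rw [← hs]
    apply Finset.sum_congr rfl
    intro c _
    have hc : (c * rowHom b σ) (σ⁻¹ y, b) = c (y, b) := by
      rw [Equiv.Perm.mul_apply, rowHom_apply]
      simp
    rw [hc]
    ring
  simp_rw [e1]
  rw [Finset.sum_comm]
  have e2 : ∀ c : Equiv.Perm (ι × Bool),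
      ∑ σ : Equiv.Perm ι, ν σ * ((if c (σ⁻¹ y, b) = a then (1 : ℝ) else 0) * h c) =
        (1 / (Fintype.card ι : ℝ)) * (h c * t c) := by
    intro c
    have e3 : ∀ σ : Equiv.Perm ι, ν σ * ((if c (σ⁻¹ y, b) = a then (1 : ℝ) else 0) * h c) =
        ∑ z : ι, (if c (z, b) = a then (1 : ℝ) else 0) * h c * (if σ z = y then ν σ else 0) := by
      intro σ
      rw [Finset.sum_eq_single (σ⁻¹ y)]
      · simp
        ring_nf
      · intro z _ hz
        have hne : σ z ≠ y := by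
          intro h'
          apply hz
          rw [← h']
          simp
        simp [hne]
      · intro h'
        exact absurd (Finset.mem_univ _) h'
    simp_rw [e3]
    rw [Finset.sum_comm]
    simp_rw [← Finset.mul_sum, H1]
    simp only [ht]
    rw [Finset.mul_sum, Finset.mul_sum]
    apply Finset.sum_congr rfl
    intro z _
    ring
  simp_rw [e2]
  rw [← Finset.mul_sum, hth, mul_zero]

/-! ### The two one-row blocks -/

/-- The top-row block: a function of the top row with zero average over the arrangements of the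
top row is contracted by `lam / 4` by "permute the top row by `ν`, then swap columns". -/
theorem block_top (hA : LemmaAStmt ι) (ν : Equiv.Perm ι → ℝ)
    (H1 : ∀ y z : ι, ∑ σ : Equiv.Perm ι, (if σ y = z then ν σ else 0) =
      1 / (Fintype.card ι : ℝ))
    (lam : ℝ)
    (H2 : ∀ ψ : Equiv.Perm ι → ℝ, ∑ g, ψ g = 0 →
      ∑ g, (∑ σ, ν σ * ψ (g * σ)) ^ 2 ≤ lam * ∑ g, (ψ g) ^ 2)
    (h : Equiv.Perm (ι × Bool) → ℝ)
    (hB : ∀ (σ : Equiv.Perm ι) (c : Equiv.Perm (ι × Bool)), h (c * rhoB σ) = h c)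
    (hT : ∀ c, ∑ σ : Equiv.Perm ι, h (c * rhoT σ) = 0) :
    ∑ c, (opE (opR rhoT ν h) c) ^ 2 ≤ (lam / 4) * ∑ c, (h c) ^ 2 := by
  have h1 : ∑ c, (opE (opR rhoT ν h) c) ^ 2 ≤ (1 / 4) * ∑ c, (opR rhoT ν h c) ^ 2 := by
    apply hA
    · intro σ c
      exact opR_inv_of_comm rhoT rhoB rho_comm ν h hB σ c
    · intro y a
      exact ortho_row false ν H1 h hT y a
  have h2 : ∑ c, (opR rhoT ν h c) ^ 2 ≤ lam * ∑ c, (h c) ^ 2 :=
    opR_contract rhoT ν lam H2 h hT
  calc ∑ c, (opE (opR rhoT ν h) c) ^ 2 ≤ (1 / 4) * ∑ c, (opR rhoT ν h c) ^ 2 := h1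
    _ ≤ (1 / 4) * (lam * ∑ c, (h c) ^ 2) := by
        apply mul_le_mul_of_nonneg_left h2
        norm_num
    _ = (lam / 4) * ∑ c, (h c) ^ 2 := by ring

theorem opR_rhoT_flipF (ν : Equiv.Perm ι → ℝ) (h : Equiv.Perm (ι × Bool) → ℝ) :
    opR rhoT ν (flipF h) = flipF (opR rhoB ν h) := by
  funext c
  unfold opR flipF
  apply Finset.sum_congr rfl
  intro σ _
  rw [mul_assoc c, rhoT_mul_flipE, ← mul_assoc c]

/-- The bottom-row block, by exchanging the two rows. -/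
theorem block_bot (hA : LemmaAStmt ι) (ν : Equiv.Perm ι → ℝ)
    (H1 : ∀ y z : ι, ∑ σ : Equiv.Perm ι, (if σ y = z then ν σ else 0) =
      1 / (Fintype.card ι : ℝ))
    (lam : ℝ)
    (H2 : ∀ ψ : Equiv.Perm ι → ℝ, ∑ g, ψ g = 0 →
      ∑ g, (∑ σ, ν σ * ψ (g * σ)) ^ 2 ≤ lam * ∑ g, (ψ g) ^ 2)
    (h : Equiv.Perm (ι × Bool) → ℝ)
    (hT : ∀ (σ : Equiv.Perm ι) (c : Equiv.Perm (ι × Bool)), h (c * rhoT σ) = h c)
    (hB : ∀ c, ∑ σ : Equiv.Perm ι, h (c * rhoB σ) = 0) :
    ∑ c, (opE (opR rhoB ν h) c) ^ 2 ≤ (lam / 4) * ∑ c, (h c) ^ 2 := by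
  have key := block_top hA ν H1 lam H2 (flipF h)
    (by
      intro σ c
      unfold flipF
      rw [mul_assoc c, rhoB_mul_flipE, ← mul_assoc c, hT])
    (by
      intro c
      unfold flipF
      have := hB (c * flipE)
      rw [← this]
      apply Finset.sum_congr rfl
      intro σ _
      rw [mul_assoc c, rhoT_mul_flipE, ← mul_assoc c])
  rw [opR_rhoT_flipF, opE_flipF, sum_flipF_sq, sum_flipF_sq] at key
  exact key

/-! ### The recursion step -/

theorem stepStmt_of (hJ : JohnsonStmt ι) (hA : LemmaAStmt ι) : StepStmt ι := by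
  intro ν lam hν0 hν1 H1 hlam H2 f hf
  -- the two projections
  set A0 : (Equiv.Perm (ι × Bool) → ℝ) → Equiv.Perm (ι × Bool) → ℝ :=
    opR rhoT (unif (Equiv.Perm ι)) with hA0
  set B0 : (Equiv.Perm (ι × Bool) → ℝ) → Equiv.Perm (ι × Bool) → ℝ :=
    opR rhoB (unif (Equiv.Perm ι)) with hB0
  -- the four blocks
  set g : Equiv.Perm (ι × Bool) → ℝ := f - B0 f with hg
  set f00 : Equiv.Perm (ι × Bool) → ℝ := A0 (B0 f) with hf00
  set f10 : Equiv.Perm (ι × Bool) → ℝ := B0 f - A0 (B0 f) with hf10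
  set f01 : Equiv.Perm (ι × Bool) → ℝ := A0 g with hf01
  set f11 : Equiv.Perm (ι × Bool) → ℝ := g - A0 g with hf11
  have hsplit : f = ((f00 + f10) + f01) + f11 := by
    funext c
    simp only [hf00, hf10, hf01, hf11, hg, Pi.add_apply, Pi.sub_apply]
    ring
  -- Pythagoras
  have hpyth : ∑ c, (f c) ^ 2 =
      ∑ c, (f00 c) ^ 2 + ∑ c, (f10 c) ^ 2 + ∑ c, (f01 c) ^ 2 + ∑ c, (f11 c) ^ 2 := by
    have p1 := opR_unif_pyth (G := Equiv.Perm ι) rhoB f
    have p2 := opR_unif_pyth (G := Equiv.Perm ι) rhoT (B0 f)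
    have p3 := opR_unif_pyth (G := Equiv.Perm ι) rhoT g
    have e1 : ∑ c, (f c - opR rhoB (unif (Equiv.Perm ι)) f c) ^ 2 = ∑ c, (g c) ^ 2 := rfl
    have e2 : ∑ c, (B0 f c - opR rhoT (unif (Equiv.Perm ι)) (B0 f) c) ^ 2 = ∑ c, (f10 c) ^ 2 := rfl
    have e3 : ∑ c, (g c - opR rhoT (unif (Equiv.Perm ι)) g c) ^ 2 = ∑ c, (f11 c) ^ 2 := rfl
    rw [e1] at p1
    rw [e2] at p2
    rw [e3] at p3
    have e4 : ∑ c, (opR rhoB (unif (Equiv.Perm ι)) f c) ^ 2 = ∑ c, (B0 f c) ^ 2 := rfl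
    have e5 : ∑ c, (opR rhoT (unif (Equiv.Perm ι)) (B0 f) c) ^ 2 = ∑ c, (f00 c) ^ 2 := rfl
    have e6 : ∑ c, (opR rhoT (unif (Equiv.Perm ι)) g c) ^ 2 = ∑ c, (f01 c) ^ 2 := rfl
    rw [e4] at p1
    rw [e5] at p2
    rw [e6] at p3
    linarith
  -- invariances
  have B0f_invB : ∀ (σ : Equiv.Perm ι) (c : Equiv.Perm (ι × Bool)), B0 f (c * rhoB σ) = B0 f c :=
    fun σ c => opR_unif_inv rhoB f σ c
  have f00_invT : ∀ (σ : Equiv.Perm ι) (c : Equiv.Perm (ι × Bool)), f00 (c * rhoT σ) = f00 c :=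
    fun σ c => opR_unif_inv rhoT (B0 f) σ c
  have f00_invB : ∀ (σ : Equiv.Perm ι) (c : Equiv.Perm (ι × Bool)), f00 (c * rhoB σ) = f00 c :=
    fun σ c => opR_inv_of_comm rhoT rhoB rho_comm _ (B0 f) B0f_invB σ c
  have f10_invB : ∀ (σ : Equiv.Perm ι) (c : Equiv.Perm (ι × Bool)), f10 (c * rhoB σ) = f10 c := by
    intro σ c
    simp only [hf10, Pi.sub_apply]
    rw [B0f_invB, ← hf00, f00_invB]
  have f01_invT : ∀ (σ : Equiv.Perm ι) (c : Equiv.Perm (ι × Bool)), f01 (c * rhoT σ) = f01 c :=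
    fun σ c => opR_unif_inv rhoT g σ c
  -- vanishing averages
  have A0f10 : A0 f10 = 0 := by
    simp only [hf10, hA0]
    rw [opR_sub, opR_unif_idem, sub_self]
  have B0g : B0 g = 0 := by
    simp only [hg, hB0]
    rw [opR_sub, opR_unif_idem, sub_self]
  have B0f01 : B0 f01 = 0 := by
    simp only [hf01, hA0, hB0]
    rw [← opR_comm rhoT rhoB rho_comm]
    have : opR rhoB (unif (Equiv.Perm ι)) g = 0 := B0g
    rw [this, opR_zero]
  have A0f11 : A0 f11 = 0 := by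
    simp only [hf11, hA0]
    rw [opR_sub, opR_unif_idem, sub_self]
  have B0f11 : B0 f11 = 0 := by
    simp only [hf11, hB0]
    rw [opR_sub]
    have h1 : opR rhoB (unif (Equiv.Perm ι)) g = 0 := B0g
    have h2 : opR rhoB (unif (Equiv.Perm ι)) (A0 g) = 0 := B0f01
    rw [h1, h2, sub_self]
  -- the images under `opW`
  have W00 : opW ν f00 = f00 := by
    rw [opW_eq, opR_of_inv rhoB ν hν1 f00 f00_invB, opR_of_inv rhoT ν hν1 f00 f00_invT]
  have W10 : opW ν f10 = opR rhoT ν f10 := by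
    rw [opW_eq, opR_of_inv rhoB ν hν1 f10 f10_invB]
  have W01 : opW ν f01 = opR rhoB ν f01 := by
    rw [opW_eq, opR_comm rhoT rhoB rho_comm, opR_of_inv rhoT ν hν1 f01 f01_invT]
  have W11 : opW ν f11 = opR rhoT ν (opR rhoB ν f11) := opW_eq ν f11
  have Wsplit : opW ν f = ((f00 + opR rhoT ν f10) + opR rhoB ν f01) +
      opR rhoT ν (opR rhoB ν f11) := by
    have hW : ∀ p q : Equiv.Perm (ι × Bool) → ℝ, opW ν (p + q) = opW ν p + opW ν q := by
      intro p q
      rw [opW_eq, opW_eq, opW_eq, opR_add, opR_add]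
    conv_lhs => rw [hsplit]
    rw [hW, hW, hW, W00, W10, W01, W11]
  have Esplit : opE (opW ν f) = ((opE f00 + opE (opR rhoT ν f10)) + opE (opR rhoB ν f01)) +
      opE (opR rhoT ν (opR rhoB ν f11)) := by
    rw [Wsplit, opE_add, opE_add, opE_add]
  -- the four bounds
  have b00 : ∑ c, (opE f00 c) ^ 2 ≤ (1 / (2 * (Fintype.card ι : ℝ))) * ∑ c, (f00 c) ^ 2 := by
    apply hJ
    · intro σ0 σ1 c
      rw [rowsE_eq, ← mul_assoc, f00_invB, f00_invT]
    · have s1 : ∑ c, f00 c = ∑ c, B0 f c := by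
        simp only [hf00, hA0]
        rw [sum_opR, sum_unif, one_mul]
      have s2 : ∑ c, B0 f c = ∑ c, f c := by
        simp only [hB0]
        rw [sum_opR, sum_unif, one_mul]
      rw [s1, s2, hf]
  have b10 : ∑ c, (opE (opR rhoT ν f10) c) ^ 2 ≤ (lam / 4) * ∑ c, (f10 c) ^ 2 :=
    block_top hA ν H1 lam H2 f10 f10_invB (sum_zero_of_unif rhoT f10 A0f10)
  have b01 : ∑ c, (opE (opR rhoB ν f01) c) ^ 2 ≤ (lam / 4) * ∑ c, (f01 c) ^ 2 :=
    block_bot hA ν H1 lam H2 f01 f01_invT (sum_zero_of_unif rhoB f01 B0f01)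
  have b11 : ∑ c, (opE (opR rhoT ν (opR rhoB ν f11)) c) ^ 2 ≤ (lam ^ 2) * ∑ c, (f11 c) ^ 2 := by
    have c1 : ∑ c, (opR rhoB ν f11 c) ^ 2 ≤ lam * ∑ c, (f11 c) ^ 2 :=
      opR_contract rhoB ν lam H2 f11 (sum_zero_of_unif rhoB f11 B0f11)
    have hz : opR rhoT (unif (Equiv.Perm ι)) (opR rhoB ν f11) = 0 := by
      rw [opR_comm rhoT rhoB rho_comm]
      have : opR rhoT (unif (Equiv.Perm ι)) f11 = 0 := A0f11
      rw [this, opR_zero]
    have c2 : ∑ c, (opR rhoT ν (opR rhoB ν f11) c) ^ 2 ≤ lam * ∑ c, (opR rhoB ν f11 c) ^ 2 :=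
      opR_contract rhoT ν lam H2 _ (sum_zero_of_unif rhoT _ hz)
    calc ∑ c, (opE (opR rhoT ν (opR rhoB ν f11)) c) ^ 2
        ≤ ∑ c, (opR rhoT ν (opR rhoB ν f11) c) ^ 2 := opE_sq_le _
      _ ≤ lam * ∑ c, (opR rhoB ν f11 c) ^ 2 := c2
      _ ≤ lam * (lam * ∑ c, (f11 c) ^ 2) := mul_le_mul_of_nonneg_left c1 hlam
      _ = (lam ^ 2) * ∑ c, (f11 c) ^ 2 := by ring
  -- combination
  have n00 : 0 ≤ ∑ c, (f00 c) ^ 2 := Finset.sum_nonneg (fun c _ => sq_nonneg _)
  have n10 : 0 ≤ ∑ c, (f10 c) ^ 2 := Finset.sum_nonneg (fun c _ => sq_nonneg _)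
  have n01 : 0 ≤ ∑ c, (f01 c) ^ 2 := Finset.sum_nonneg (fun c _ => sq_nonneg _)
  have n11 : 0 ≤ ∑ c, (f11 c) ^ 2 := Finset.sum_nonneg (fun c _ => sq_nonneg _)
  have hM : (0 : ℝ) ≤ 1 / (2 * (Fintype.card ι : ℝ)) := by positivity
  have s1 := sq_add_le (opE f00) (opE (opR rhoT ν f10)) _ _ _ _ hM (by positivity) n00 n10 b00 b10
  have s2 := sq_add_le (fun c => opE f00 c + opE (opR rhoT ν f10) c) (opE (opR rhoB ν f01))
    _ _ _ _ (by positivity) (by positivity) (by positivity) n01 s1 b01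
  have s3 := sq_add_le
    (fun c => opE f00 c + opE (opR rhoT ν f10) c + opE (opR rhoB ν f01) c)
    (opE (opR rhoT ν (opR rhoB ν f11)))
    _ _ _ _ (by positivity) (by positivity) (by positivity) n11 s2 b11
  rw [Esplit, hpyth]
  refine le_trans (le_of_eq ?_) (le_trans s3 (le_of_eq ?_))
  · rfl
  · ring

end Crest.Agent.Helper13.Gap
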