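import Crest.Agent.Helper54.Shuffle.GapDefs
import Crest.Agent.Helper13.Shuffle.GapStep

/-!
# S0222 pre-build (GAP), helper13: bridge between the two interfaces

`bridge_step`: the recursion step `StepStmt (Fin (2 * m'))` of the abstract model
(`GapDefs.lean`, positions `ι × Bool`, arrangements acted on from the right) gives the recursion
step in the Prelude-facing shapes of `Helper54/Shuffle/GapDefs.lean`:
`PassRec m' t → SingleUniform m' t → Contracts m' t lam' →
   Contracts (2 * m') (t + 1) (1 / (4 * m') + lam' / 2 + lam' ^ 2)`.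
-/

set_option autoImplicit false

namespace Crest.Agent.Helper13.Gap

open Crest.Agent.Helper3.Shuffle
open Crest.Agent.Helper54.Shuffle (Contracts SingleUniform PassRec swapCols rows swapPair rowsPair)

/-- Conjugation by helper54's `posEquiv`: permutations of the pairs (column, row) as permutations
of the positions `Fin (2 * M)`. -/
def Phi (M : ℕ) : Equiv.Perm (Fin M × Bool) ≃* Equiv.Perm (Fin (2 * M)) :=
  (Crest.Agent.Helper54.Shuffle.posEquiv M).symm.permCongrHom

theorem Phi_swapE (M : ℕ) (c : Fin M → Bool) : Phi M (swapE c) = swapCols c := by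
  apply Equiv.ext
  intro x
  rfl

theorem Phi_rowsE (M : ℕ) (π0 π1 : Equiv.Perm (Fin M)) : Phi M (rowsE π0 π1) = rows π0 π1 := by
  apply Equiv.ext
  intro x
  show (Crest.Agent.Helper54.Shuffle.posEquiv M).symm
      (rowsE π0 π1 (Crest.Agent.Helper54.Shuffle.posEquiv M x)) =
    (Crest.Agent.Helper54.Shuffle.posEquiv M).symm
      (rowsPair π0 π1 (Crest.Agent.Helper54.Shuffle.posEquiv M x))
  congr 1
  rcases (Crest.Agent.Helper54.Shuffle.posEquiv M x) with ⟨y, b⟩
  cases b <;> rfl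

/-- The reindexing `a ↦ (Phi a)⁻¹` between arrangements of the two models. -/
def arrEquiv (M : ℕ) : Equiv.Perm (Fin M × Bool) ≃ Equiv.Perm (Fin (2 * M)) :=
  (Phi M).toEquiv.trans (Equiv.inv _)

theorem arrEquiv_apply (M : ℕ) (a : Equiv.Perm (Fin M × Bool)) :
    arrEquiv M a = (Phi M a)⁻¹ := rfl

theorem arrEquiv_symm_apply (M : ℕ) (g : Equiv.Perm (Fin (2 * M))) :
    (arrEquiv M).symm g = ((Phi M).symm g)⁻¹ := by
  apply (arrEquiv M).injective
  rw [Equiv.apply_symm_apply, arrEquiv_apply, map_inv, inv_inv, MulEquiv.apply_symm_apply]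

theorem bridge_step (m' t : ℕ) (lam' : ℝ) (hlam : 0 ≤ lam')
    (hS : StepStmt (Fin (2 * m'))) (hrec : PassRec m' t) (hsu : SingleUniform m' t)
    (hc : Contracts m' t lam') :
    Contracts (2 * m') (t + 1) (1 / (4 * (m' : ℝ)) + lam' / 2 + lam' ^ 2) := by
  intro ψ hψ
  have H1 : ∀ y z : Fin (2 * m'),
      ∑ σ : Equiv.Perm (Fin (2 * m')), (if σ y = z then law m' t σ else 0) =
        1 / (Fintype.card (Fin (2 * m')) : ℝ) := by
    intro y z
    have h := hsu y z
    rw [expect_eq_sum_law] at h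
    rw [Fintype.card_fin]
    push_cast
    rw [← h]
    apply Finset.sum_congr rfl
    intro σ _
    split_ifs <;> simp
  have H2 : ∀ φ : Equiv.Perm (Fin (2 * m')) → ℝ, ∑ g, φ g = 0 →
      ∑ g, (∑ σ, law m' t σ * φ (g * σ)) ^ 2 ≤ lam' * ∑ g, (φ g) ^ 2 := by
    intro φ hφ
    have h := hc (fun g => φ g⁻¹) (by rw [sum_inv' φ]; exact hφ)
    rw [sum_inv' (fun g => (φ g) ^ 2)] at h
    refine le_trans (le_of_eq ?_) h
    rw [← sum_inv' (fun g => (opL m' t (fun g => φ g⁻¹) g) ^ 2)]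
    apply Finset.sum_congr rfl
    intro g _
    have e : opL m' t (fun g => φ g⁻¹) g⁻¹ = ∑ σ, law m' t σ * φ (g * σ) := by
      unfold opL
      apply Finset.sum_congr rfl
      intro k _
      show law m' t k * φ (k⁻¹ * g⁻¹)⁻¹ = law m' t k * φ (g * k)
      rw [mul_inv_rev, inv_inv, inv_inv]
    rw [e]
  have key := hS (law m' t) lam' (law_nonneg m' t) (sum_law m' t) H1 hlam H2
  set Ψ : Equiv.Perm (Fin (2 * m') × Bool) → ℝ := fun a => ψ (arrEquiv (2 * m') a) with hΨ
  have hΨ0 : ∑ a, Ψ a = 0 := by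
    rw [← hψ]
    exact Equiv.sum_comp (arrEquiv (2 * m')) ψ
  have hΨ2 : ∑ a, (Ψ a) ^ 2 = ∑ g, (ψ g) ^ 2 :=
    Equiv.sum_comp (arrEquiv (2 * m')) (fun g => (ψ g) ^ 2)
  have hop : ∀ g : Equiv.Perm (Fin (2 * (2 * m'))),
      opL (2 * m') (t + 1) ψ g = opE (opW (law m' t) Ψ) ((arrEquiv (2 * m')).symm g) := by
    intro g
    rw [opL_eq_expect, hrec]
    unfold opE
    rw [Fintype.card_fin]
    congr 1
    apply Finset.sum_congr rfl
    intro c _
    rw [expect_eq_sum_law]
    unfold opW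
    apply Finset.sum_congr rfl
    intro π0 _
    rw [expect_eq_sum_law, Finset.mul_sum]
    apply Finset.sum_congr rfl
    intro π1 _
    have e : Ψ ((arrEquiv (2 * m')).symm g * swapE c * rowsE π0 π1) =
        ψ ((swapCols c * rows π0 π1)⁻¹ * g) := by
      simp only [hΨ]
      rw [arrEquiv_apply, arrEquiv_symm_apply, map_mul, map_mul, map_inv,
        MulEquiv.apply_symm_apply, Phi_swapE, Phi_rowsE, mul_inv_rev, mul_inv_rev, inv_inv,
        mul_inv_rev, mul_assoc]
    rw [e]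
    ring
  calc ∑ g, (opL (2 * m') (t + 1) ψ g) ^ 2
      = ∑ g, (opE (opW (law m' t) Ψ) ((arrEquiv (2 * m')).symm g)) ^ 2 := by
        apply Finset.sum_congr rfl
        intro g _
        rw [hop]
    _ = ∑ a, (opE (opW (law m' t) Ψ) a) ^ 2 :=
        Equiv.sum_comp (arrEquiv (2 * m')).symm (fun a => (opE (opW (law m' t) Ψ) a) ^ 2)
    _ ≤ (1 / (2 * (Fintype.card (Fin (2 * m')) : ℝ)) + lam' / 2 + lam' ^ 2) * ∑ a, (Ψ a) ^ 2 :=
        key Ψ hΨ0
    _ = (1 / (4 * (m' : ℝ)) + lam' / 2 + lam' ^ 2) * ∑ g, (ψ g) ^ 2 := by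
        rw [hΨ2, Fintype.card_fin]
        push_cast
        ring_nf

end Crest.Agent.Helper13.Gap
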