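import Mathlib

/-!
# S0222 (Thorp shuffle) — Lean pre-build of GAP: common definitions and work-package statements

Nothing here is proved about the row.  This file fixes the interface between the work packages of
the conditional "GAP" formalisation (notes/s0222/helper82_gap_proof.md, referee reports of
helper54 and helper2).

Model.  `ι` = the columns.  A position is `(y, b) : ι × Bool` (column `y`, row `b`; row `false` is
the "top" row).  Cards are labelled by `ι × Bool` as well, and an arrangement is
`c : Equiv.Perm (ι × Bool)`, `c (y, b)` = the card at position `(y, b)`.  `c * k` is the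
arrangement `p ↦ c (k p)`.
-/

set_option autoImplicit false

namespace Crest.Agent.Helper13.Gap

open Finset

variable {ι : Type*}

/-- Swap the two cards of every column `y` with `s y = true`. -/
def swapE (s : ι → Bool) : Equiv.Perm (ι × Bool) where
  toFun p := (p.1, xor p.2 (s p.1))
  invFun p := (p.1, xor p.2 (s p.1))
  left_inv := by intro p; cases p; simp
  right_inv := by intro p; cases p; simp

/-- Permute the columns inside each row: row `false` by `σ0`, row `true` by `σ1`. -/
def rowsE (σ0 σ1 : Equiv.Perm ι) : Equiv.Perm (ι × Bool) where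
  toFun p := (if p.2 then σ1 p.1 else σ0 p.1, p.2)
  invFun p := (if p.2 then σ1.symm p.1 else σ0.symm p.1, p.2)
  left_inv := by rintro ⟨y, b⟩; cases b <;> simp
  right_inv := by rintro ⟨y, b⟩; cases b <;> simp

@[simp] theorem swapE_apply (s : ι → Bool) (p : ι × Bool) :
    swapE s p = (p.1, xor p.2 (s p.1)) := rfl

@[simp] theorem rowsE_apply (σ0 σ1 : Equiv.Perm ι) (p : ι × Bool) :
    rowsE σ0 σ1 p = (if p.2 then σ1 p.1 else σ0 p.1, p.2) := rfl

variable [Fintype ι] [DecidableEq ι]

/-- The column-swap average: every column is swapped independently with probability `1/2`. -/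
noncomputable def opE (f : Equiv.Perm (ι × Bool) → ℝ) (c : Equiv.Perm (ι × Bool)) : ℝ :=
  (∑ s : ι → Bool, f (c * swapE s)) / 2 ^ Fintype.card ι

/-- The two rows are permuted by independent permutations with law `ν`. -/
noncomputable def opW (ν : Equiv.Perm ι → ℝ) (f : Equiv.Perm (ι × Bool) → ℝ)
    (c : Equiv.Perm (ι × Bool)) : ℝ :=
  ∑ σ0 : Equiv.Perm ι, ∑ σ1 : Equiv.Perm ι, ν σ0 * ν σ1 * f (c * rowsE σ0 σ1)

/-- WORK PACKAGE J (Johnson-chain bound).  A mean-zero function of the top SET (= a function
invariant under all permutations inside the rows) is contracted by the column-swap average by the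
factor `1 / N`, `N = 2 * card ι` the number of cards. -/
def JohnsonStmt (ι : Type*) [Fintype ι] [DecidableEq ι] : Prop :=
  ∀ f : Equiv.Perm (ι × Bool) → ℝ,
    (∀ (σ0 σ1 : Equiv.Perm ι) (c : Equiv.Perm (ι × Bool)), f (c * rowsE σ0 σ1) = f c) →
    ∑ c, f c = 0 →
    ∑ c, (opE f c) ^ 2 ≤ (1 / (2 * (Fintype.card ι : ℝ))) * ∑ c, (f c) ^ 2

/-- WORK PACKAGE A (helper82's Lemma A).  A function of the top ROW only (= invariant under the
permutations of the bottom row) which is orthogonal to every one-card function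
`c ↦ 1[c (y, false) = a]` is contracted by the column-swap average by the factor `1/4`. -/
def LemmaAStmt (ι : Type*) [Fintype ι] [DecidableEq ι] : Prop :=
  ∀ u : Equiv.Perm (ι × Bool) → ℝ,
    (∀ (σ : Equiv.Perm ι) (c : Equiv.Perm (ι × Bool)), u (c * rowsE 1 σ) = u c) →
    (∀ (y : ι) (a : ι × Bool),
      ∑ c : Equiv.Perm (ι × Bool), (if c (y, false) = a then u c else 0) = 0) →
    ∑ c, (opE u c) ^ 2 ≤ (1 / 4) * ∑ c, (u c) ^ 2

/-- The conclusion of the recursion step (work package R, helper13): if `ν` is a probability on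
`Perm ι` under which every single card is uniform and which contracts mean-zero functions by `lam`
(squared `L²` norm), then "rows by `ν`, then column swaps" contracts mean-zero functions of the
arrangement by `1 / N + lam / 2 + lam ^ 2`. -/
def StepStmt (ι : Type*) [Fintype ι] [DecidableEq ι] : Prop :=
  ∀ (ν : Equiv.Perm ι → ℝ) (lam : ℝ),
    (∀ σ, 0 ≤ ν σ) → ∑ σ, ν σ = 1 →
    (∀ y z : ι, ∑ σ : Equiv.Perm ι, (if σ y = z then ν σ else 0) = 1 / (Fintype.card ι : ℝ)) →
    0 ≤ lam →
    (∀ ψ : Equiv.Perm ι → ℝ, ∑ g, ψ g = 0 →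
      ∑ g, (∑ σ, ν σ * ψ (g * σ)) ^ 2 ≤ lam * ∑ g, (ψ g) ^ 2) →
    ∀ f : Equiv.Perm (ι × Bool) → ℝ, ∑ c, f c = 0 →
      ∑ c, (opE (opW ν f) c) ^ 2 ≤
        (1 / (2 * (Fintype.card ι : ℝ)) + lam / 2 + lam ^ 2) * ∑ c, (f c) ^ 2

end Crest.Agent.Helper13.Gap
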