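import Crest.Agent.Helper99.Shuffle.W2
import Crest.Agent.Helper13.Shuffle.GapBridge

/-!
# S0222 pre-build (GAP), helper13: the induction over the deck size and the end game

Everything here is CONDITIONAL on three families of hypotheses, which are the open work packages:
* `hJ : ∀ n, JohnsonStmt (Fin n)`   (Johnson-chain bound),
* `hA : ∀ n, LemmaAStmt (Fin n)`    (helper82's Lemma A),
* `hP : ∀ d, PassRec (2 ^ d) (d + 1)` (structure of one pass, helper54's shape).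

`gap_all` : one pass of `2 * 2 ^ d` cards contracts mean-zero functions by `lamSeq d`,
`lamSeq_le` : `lamSeq d ≤ 3 * (5 / 6) ^ (d + 1)`,
`s0222_of_spread` : a bound `B d` on the chi-square distance after `K0` passes with
`lamSeq d ^ J * B d → 0`, `K0 + J ≤ 1600`, gives the statement of S0222.
-/

set_option autoImplicit false

namespace Crest.Agent.Helper13.Gap

open Crest.ProbabilityR.Shuffle Crest.Agent.Helper3.Shuffle
open Crest.Agent.Helper54.Shuffle (Contracts SingleUniform PassRec)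

/-- The bound for the squared norm of one pass of `2 * 2 ^ d` cards on mean-zero functions:
`lam_1 = 0`, `lam_D = 1 / 2 ^ D + lam_{D-1} / 2 + lam_{D-1} ^ 2` (`D = d + 1`). -/
noncomputable def lamSeq : ℕ → ℝ
  | 0 => 0
  | d + 1 => 1 / (4 * (2 : ℝ) ^ d) + lamSeq d / 2 + (lamSeq d) ^ 2

theorem lamSeq_zero : lamSeq 0 = 0 := rfl

theorem lamSeq_succ (d : ℕ) :
    lamSeq (d + 1) = 1 / (4 * (2 : ℝ) ^ d) + lamSeq d / 2 + (lamSeq d) ^ 2 := rfl

theorem lamSeq_nonneg : ∀ d : ℕ, 0 ≤ lamSeq d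
  | 0 => le_of_eq lamSeq_zero.symm
  | d + 1 => by
      rw [lamSeq_succ]
      have := lamSeq_nonneg d
      positivity

theorem lamSeq_le_third : ∀ d : ℕ, lamSeq d ≤ 1 / 3
  | 0 => by rw [lamSeq_zero]; norm_num
  | 1 => by rw [lamSeq_succ, lamSeq_zero]; norm_num
  | 2 => by rw [lamSeq_succ, lamSeq_succ, lamSeq_zero]; norm_num
  | 3 => by rw [lamSeq_succ, lamSeq_succ, lamSeq_succ, lamSeq_zero]; norm_num
  | d + 4 => by
      have h := lamSeq_le_third (d + 3)
      have h0 := lamSeq_nonneg (d + 3)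
      rw [lamSeq_succ]
      have hp : (8 : ℝ) ≤ (2 : ℝ) ^ (d + 3) := by
        have h1 : (2 : ℝ) ^ 3 ≤ (2 : ℝ) ^ (d + 3) :=
          pow_le_pow_right₀ (by norm_num) (by omega)
        norm_num at h1
        linarith
      have hq : 1 / (4 * (2 : ℝ) ^ (d + 3)) ≤ 1 / 32 := by
        rw [div_le_div_iff₀ (by positivity) (by norm_num)]
        linarith
      nlinarith

theorem lamSeq_le_aux : ∀ d : ℕ,
    lamSeq d ≤ 3 * (5 / 6 : ℝ) ^ (d + 1) - (3 / 2) * (1 / 2 : ℝ) ^ (d + 1)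
  | 0 => by rw [lamSeq_zero]; norm_num
  | d + 1 => by
      have h := lamSeq_le_aux d
      have h0 := lamSeq_nonneg d
      have h3 := lamSeq_le_third d
      rw [lamSeq_succ]
      have e : 1 / (4 * (2 : ℝ) ^ d) = (1 / 2 : ℝ) ^ (d + 2) := by
        rw [one_div_pow, pow_add]
        norm_num
        ring
      rw [e]
      have e1 : (5 / 6 : ℝ) ^ (d + 1 + 1) = (5 / 6) * (5 / 6 : ℝ) ^ (d + 1) := by
        rw [pow_succ]; ring
      have e2 : (1 / 2 : ℝ) ^ (d + 1 + 1) = (1 / 2) * (1 / 2 : ℝ) ^ (d + 1) := by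
        rw [pow_succ]; ring
      rw [e1, e2]
      nlinarith

theorem lamSeq_le (d : ℕ) : lamSeq d ≤ 3 * (5 / 6 : ℝ) ^ (d + 1) := by
  have h := lamSeq_le_aux d
  have hp : (0 : ℝ) ≤ (3 / 2) * (1 / 2 : ℝ) ^ (d + 1) := by positivity
  linarith

theorem contracts_mono {m t : ℕ} {lam lam' : ℝ} (h : Contracts m t lam) (hle : lam ≤ lam') :
    Contracts m t lam' := by
  intro ψ hψ
  refine (h ψ hψ).trans ?_
  apply mul_le_mul_of_nonneg_right hle
  exact Finset.sum_nonneg (fun g _ => sq_nonneg _)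

/-- GAP for every deck size, together with the single-card uniformity, by induction on `d`. -/
theorem gap_all (hJ : ∀ n : ℕ, JohnsonStmt (Fin n)) (hA : ∀ n : ℕ, LemmaAStmt (Fin n))
    (hP : ∀ d : ℕ, PassRec (2 ^ d) (d + 1)) :
    ∀ d : ℕ, Contracts (2 ^ d) (d + 1) (lamSeq d) ∧ SingleUniform (2 ^ d) (d + 1)
  | 0 => ⟨Crest.Agent.Helper99.Shuffle.contracts_one_one,
      Crest.Agent.Helper99.Shuffle.singleUniform_one_one⟩
  | d + 1 => by
      obtain ⟨hc, hsu⟩ := gap_all hJ hA hP d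
      have h2 : 2 ^ (d + 1) = 2 * 2 ^ d := by ring
      have hstep := bridge_step (2 ^ d) (d + 1) (lamSeq d) (lamSeq_nonneg d)
        (stepStmt_of (hJ _) (hA _)) (hP d) hsu hc
      have hsu' := Crest.Agent.Helper99.Shuffle.singleUniform_step (2 ^ d) (d + 1) (hP d) hsu
      rw [h2]
      refine ⟨?_, hsu'⟩
      have e : lamSeq (d + 1) =
          1 / (4 * (((2 ^ d : ℕ)) : ℝ)) + lamSeq d / 2 + lamSeq d ^ 2 := by
        rw [lamSeq_succ]
        push_cast
        ring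
      rw [e]
      exact hstep

/-- GAP in the form of the hypothesis of `Helper3.Shuffle.chi2_iterate`. -/
theorem gap_contracts (hJ : ∀ n : ℕ, JohnsonStmt (Fin n)) (hA : ∀ n : ℕ, LemmaAStmt (Fin n))
    (hP : ∀ d : ℕ, PassRec (2 ^ d) (d + 1)) (d : ℕ) :
    ∀ ψ : Equiv.Perm (Fin (2 * 2 ^ d)) → ℝ, ∑ g, ψ g = 0 →
      ∑ g, (∑ k, law (2 ^ d) (d + 1) k * ψ (k⁻¹ * g)) ^ 2 ≤ lamSeq d * ∑ g, (ψ g) ^ 2 :=
  (gap_all hJ hA hP d).1

/-- After `K0 + J` passes the chi-square distance is at most `lamSeq d ^ J` times the one after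
`K0` passes. -/
theorem chi2_passes_le (hJ : ∀ n : ℕ, JohnsonStmt (Fin n)) (hA : ∀ n : ℕ, LemmaAStmt (Fin n))
    (hP : ∀ d : ℕ, PassRec (2 ^ d) (d + 1)) (d K0 J : ℕ) :
    chi2 (2 ^ d) ((K0 + J) * (d + 1)) ≤ lamSeq d ^ J * chi2 (2 ^ d) (K0 * (d + 1)) := by
  have h := chi2_iterate (2 ^ d) (d + 1) (K0 * (d + 1)) (lamSeq d) (lamSeq_nonneg d)
    (gap_contracts hJ hA hP d) J
  have e : (K0 + J) * (d + 1) = K0 * (d + 1) + J * (d + 1) := by ring
  rw [e]
  exact h

open Filter in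
/-- END GAME: GAP plus any bound `B d` for the chi-square distance after `K0` passes such that
`lamSeq d ^ J * B d → 0` with `K0 + J ≤ 1600` gives the statement of S0222. -/
theorem s0222_of_spread (hJ : ∀ n : ℕ, JohnsonStmt (Fin n)) (hA : ∀ n : ℕ, LemmaAStmt (Fin n))
    (hP : ∀ d : ℕ, PassRec (2 ^ d) (d + 1)) (K0 J : ℕ) (hK : K0 + J ≤ 1600) (B : ℕ → ℝ)
    (hB : ∀ᶠ d in atTop, chi2 (2 ^ d) (K0 * (d + 1)) ≤ B d)
    (hlim : Tendsto (fun d : ℕ => lamSeq d ^ J * B d) atTop (nhds 0)) :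
    Tendsto (fun d : ℕ => tvFromUniform (2 ^ d) (1600 * (d + 1))) atTop (nhds 0) := by
  apply tendsto_tv_1600_of_chi2_le (K0 + J) hK (fun d : ℕ => lamSeq d ^ J * B d) hlim
  filter_upwards [hB] with d hd
  refine (chi2_passes_le hJ hA hP d K0 J).trans ?_
  exact mul_le_mul_of_nonneg_left hd (pow_nonneg (lamSeq_nonneg d) J)

end Crest.Agent.Helper13.Gap
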