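import Crest.Agent.Helper3.Shuffle.Struct54
import Crest.Agent.Helper13.Shuffle.GapMain

/-!
# S0222 pre-build (GAP), helper13: the conditional theorems with the pass structure discharged

With helper3's `passRec` the only remaining hypotheses are the Johnson-chain bound
`hJ : ∀ n, JohnsonStmt (Fin n)` and helper82's Lemma A `hA : ∀ n, LemmaAStmt (Fin n)`
(plus the SPREAD bound `B` in the end game).
-/

set_option autoImplicit false

namespace Crest.Agent.Helper13.Gap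

open Crest.ProbabilityR.Shuffle Crest.Agent.Helper3.Shuffle
open Crest.Agent.Helper54.Shuffle (Contracts SingleUniform)

/-- GAP: one pass (`d + 1` shuffles of `2 * 2 ^ d` cards) contracts the squared `L²` norm of
mean-zero functions by `lamSeq d ≤ 3 * (5 / 6) ^ (d + 1)`; and every single card is uniform. -/
theorem gap (hJ : ∀ n : ℕ, JohnsonStmt (Fin n)) (hA : ∀ n : ℕ, LemmaAStmt (Fin n)) (d : ℕ) :
    Contracts (2 ^ d) (d + 1) (lamSeq d) ∧ SingleUniform (2 ^ d) (d + 1) :=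
  gap_all hJ hA passRec d

/-- GAP with the explicit geometric bound. -/
theorem gap_geometric (hJ : ∀ n : ℕ, JohnsonStmt (Fin n)) (hA : ∀ n : ℕ, LemmaAStmt (Fin n))
    (d : ℕ) : Contracts (2 ^ d) (d + 1) (3 * (5 / 6 : ℝ) ^ (d + 1)) :=
  contracts_mono (gap hJ hA d).1 (lamSeq_le d)

/-- After `K0 + J` passes the chi-square distance is at most `lamSeq d ^ J` times the one after
`K0` passes. -/
theorem chi2_passes (hJ : ∀ n : ℕ, JohnsonStmt (Fin n)) (hA : ∀ n : ℕ, LemmaAStmt (Fin n))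
    (d K0 J : ℕ) :
    chi2 (2 ^ d) ((K0 + J) * (d + 1)) ≤ lamSeq d ^ J * chi2 (2 ^ d) (K0 * (d + 1)) :=
  chi2_passes_le hJ hA passRec d K0 J

open Filter in
/-- END GAME (conditional on Johnson + Lemma A): any bound `B d` for the chi-square distance
after `K0` passes with `lamSeq d ^ J * B d → 0`, `K0 + J ≤ 1600`, gives the statement of S0222. -/
theorem s0222_of_chi2_bound (hJ : ∀ n : ℕ, JohnsonStmt (Fin n))
    (hA : ∀ n : ℕ, LemmaAStmt (Fin n)) (K0 J : ℕ) (hK : K0 + J ≤ 1600) (B : ℕ → ℝ)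
    (hB : ∀ᶠ d in atTop, chi2 (2 ^ d) (K0 * (d + 1)) ≤ B d)
    (hlim : Tendsto (fun d : ℕ => lamSeq d ^ J * B d) atTop (nhds 0)) :
    Tendsto (fun d : ℕ => tvFromUniform (2 ^ d) (1600 * (d + 1))) atTop (nhds 0) :=
  s0222_of_spread hJ hA passRec K0 J hK B hB hlim

open Filter in
/-- END GAME, polynomial form: if after `K0` passes the chi-square distance is at most
`A * n ^ C` (`n = 2 ^ (d + 1)` the number of cards) for all large `d`, and `K0 + 4 * C + 1 ≤ 1600`,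
then the statement of S0222 holds. -/
theorem s0222_of_poly_chi2 (hJ : ∀ n : ℕ, JohnsonStmt (Fin n))
    (hA : ∀ n : ℕ, LemmaAStmt (Fin n)) (K0 C : ℕ) (hK : K0 + (4 * C + 1) ≤ 1600) (A : ℝ)
    (hB : ∀ᶠ d in atTop, chi2 (2 ^ d) (K0 * (d + 1)) ≤ A * ((2 : ℝ) ^ (d + 1)) ^ C) :
    Tendsto (fun d : ℕ => tvFromUniform (2 ^ d) (1600 * (d + 1))) atTop (nhds 0) := by
  have hA0 : ∀ᶠ d in atTop, (0 : ℝ) ≤ A * ((2 : ℝ) ^ (d + 1)) ^ C := by
    filter_upwards [hB] with d hd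
    exact (chi2_nonneg _ _).trans hd
  -- comparison sequence
  have hq : ((5 / 6 : ℝ) ^ 4 * 2) < 1 := by norm_num
  have hq0 : (0 : ℝ) ≤ (5 / 6 : ℝ) ^ 4 * 2 := by norm_num
  have hlim0 : Tendsto (fun d : ℕ => |A| * 3 ^ (4 * C + 1) * (5 / 6 : ℝ) ^ (d + 1)) atTop
      (nhds 0) := by
    have h1 : Tendsto (fun d : ℕ => (5 / 6 : ℝ) ^ (d + 1)) atTop (nhds 0) :=
      (tendsto_pow_atTop_nhds_zero_of_lt_one (by norm_num) (by norm_num)).comp
        (tendsto_add_atTop_nat 1)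
    simpa using h1.const_mul (|A| * 3 ^ (4 * C + 1))
  apply s0222_of_chi2_bound hJ hA K0 (4 * C + 1) hK (fun d => A * ((2 : ℝ) ^ (d + 1)) ^ C) hB
  refine squeeze_zero' ?_ ?_ hlim0
  · filter_upwards [hA0] with d hd
    exact mul_nonneg (pow_nonneg (lamSeq_nonneg d) _) hd
  · filter_upwards [hA0] with d hd
    have hl : lamSeq d ^ (4 * C + 1) ≤ (3 * (5 / 6 : ℝ) ^ (d + 1)) ^ (4 * C + 1) :=
      pow_le_pow_left₀ (lamSeq_nonneg d) (lamSeq_le d) _
    have hAle : A * ((2 : ℝ) ^ (d + 1)) ^ C ≤ |A| * ((2 : ℝ) ^ (d + 1)) ^ C :=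
      mul_le_mul_of_nonneg_right (le_abs_self A) (by positivity)
    have hx : ((5 / 6 : ℝ) ^ 4 * 2) ^ (C * (d + 1)) ≤ 1 := pow_le_one₀ hq0 hq.le
    calc lamSeq d ^ (4 * C + 1) * (A * ((2 : ℝ) ^ (d + 1)) ^ C)
        ≤ (3 * (5 / 6 : ℝ) ^ (d + 1)) ^ (4 * C + 1) * (|A| * ((2 : ℝ) ^ (d + 1)) ^ C) :=
          mul_le_mul hl hAle hd (by positivity)
      _ = |A| * 3 ^ (4 * C + 1) * (5 / 6 : ℝ) ^ (d + 1) *
            ((5 / 6 : ℝ) ^ 4 * 2) ^ (C * (d + 1)) := by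
          rw [mul_pow, mul_pow, ← pow_mul, ← pow_mul, ← pow_mul]
          have e1 : (d + 1) * (4 * C + 1) = 4 * (C * (d + 1)) + (d + 1) := by ring
          have e2 : (d + 1) * C = C * (d + 1) := by ring
          rw [e1, e2, pow_add]
          ring
      _ ≤ |A| * 3 ^ (4 * C + 1) * (5 / 6 : ℝ) ^ (d + 1) * 1 :=
          mul_le_mul_of_nonneg_left hx (by positivity)
      _ = |A| * 3 ^ (4 * C + 1) * (5 / 6 : ℝ) ^ (d + 1) := by ring

end Crest.Agent.Helper13.Gap
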