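import Crest.Agent.Helper13.Shuffle.GapFinal

/-!
# S0222 pre-build (GAP), helper13: the conditional theorems with hypotheses at nonempty sizes only

`LemmaAStmt (Fin 0)` is FALSE (the hypothesis on one-card marginals is vacuous for an empty set of
columns), so the hypotheses `∀ n, LemmaAStmt (Fin n)` of `GapMain`/`GapFinal` cannot be met.  The
induction only ever uses the sizes `n = 2 * 2 ^ d`; this file re-issues the chain with

* `hS : ∀ d, StepStmt (Fin (2 * 2 ^ d))`  (`*_of_step`), or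
* `hJ : ∀ n, 0 < n → JohnsonStmt (Fin n)`, `hA : ∀ n, 0 < n → LemmaAStmt (Fin n)`  (primed names), or
* `hJ`, `hA` for every nonempty finite type of columns (`*_of_nonempty`).
-/

set_option autoImplicit false

namespace Crest.Agent.Helper13.Gap

open Crest.ProbabilityR.Shuffle Crest.Agent.Helper3.Shuffle
open Crest.Agent.Helper54.Shuffle (Contracts SingleUniform PassRec)

/-- GAP for every deck size from the step statements at the sizes `2 * 2 ^ d`. -/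
theorem gap_of_step (hS : ∀ d : ℕ, StepStmt (Fin (2 * 2 ^ d))) :
    ∀ d : ℕ, Contracts (2 ^ d) (d + 1) (lamSeq d) ∧ SingleUniform (2 ^ d) (d + 1)
  | 0 => ⟨Crest.Agent.Helper99.Shuffle.contracts_one_one,
      Crest.Agent.Helper99.Shuffle.singleUniform_one_one⟩
  | d + 1 => by
      obtain ⟨hc, hsu⟩ := gap_of_step hS d
      have h2 : 2 ^ (d + 1) = 2 * 2 ^ d := by ring
      have hstep := bridge_step (2 ^ d) (d + 1) (lamSeq d) (lamSeq_nonneg d)
        (hS d) (passRec d) hsu hc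
      have hsu' := Crest.Agent.Helper99.Shuffle.singleUniform_step (2 ^ d) (d + 1) (passRec d) hsu
      rw [h2]
      refine ⟨?_, hsu'⟩
      have e : lamSeq (d + 1) =
          1 / (4 * (((2 ^ d : ℕ)) : ℝ)) + lamSeq d / 2 + lamSeq d ^ 2 := by
        rw [lamSeq_succ]
        push_cast
        ring
      rw [e]
      exact hstep

/-- GAP with the explicit geometric bound. -/
theorem gap_geometric_of_step (hS : ∀ d : ℕ, StepStmt (Fin (2 * 2 ^ d))) (d : ℕ) :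
    Contracts (2 ^ d) (d + 1) (3 * (5 / 6 : ℝ) ^ (d + 1)) :=
  contracts_mono (gap_of_step hS d).1 (lamSeq_le d)

/-- After `K0 + J` passes the chi-square distance is at most `lamSeq d ^ J` times the one after
`K0` passes. -/
theorem chi2_passes_of_step (hS : ∀ d : ℕ, StepStmt (Fin (2 * 2 ^ d))) (d K0 J : ℕ) :
    chi2 (2 ^ d) ((K0 + J) * (d + 1)) ≤ lamSeq d ^ J * chi2 (2 ^ d) (K0 * (d + 1)) := by
  have h := chi2_iterate (2 ^ d) (d + 1) (K0 * (d + 1)) (lamSeq d) (lamSeq_nonneg d)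
    (gap_of_step hS d).1 J
  have e : (K0 + J) * (d + 1) = K0 * (d + 1) + J * (d + 1) := by ring
  rw [e]
  exact h

open Filter in
/-- END GAME: any bound `B d` for the chi-square distance after `K0` passes with
`lamSeq d ^ J * B d → 0`, `K0 + J ≤ 1600`, gives the statement of S0222. -/
theorem s0222_of_chi2_bound_of_step (hS : ∀ d : ℕ, StepStmt (Fin (2 * 2 ^ d)))
    (K0 J : ℕ) (hK : K0 + J ≤ 1600) (B : ℕ → ℝ)
    (hB : ∀ᶠ d in atTop, chi2 (2 ^ d) (K0 * (d + 1)) ≤ B d)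
    (hlim : Tendsto (fun d : ℕ => lamSeq d ^ J * B d) atTop (nhds 0)) :
    Tendsto (fun d : ℕ => tvFromUniform (2 ^ d) (1600 * (d + 1))) atTop (nhds 0) := by
  apply tendsto_tv_1600_of_chi2_le (K0 + J) hK (fun d : ℕ => lamSeq d ^ J * B d) hlim
  filter_upwards [hB] with d hd
  refine (chi2_passes_of_step hS d K0 J).trans ?_
  exact mul_le_mul_of_nonneg_left hd (pow_nonneg (lamSeq_nonneg d) J)

open Filter in
/-- The comparison used in the polynomial end game: `lamSeq d ^ (4 C + 1) * (A n ^ C) → 0`,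
provided `A n ^ C` is eventually nonnegative (`n = 2 ^ (d + 1)`). -/
theorem tendsto_lamSeq_pow_mul_poly (C : ℕ) (A : ℝ)
    (hA0 : ∀ᶠ d in atTop, (0 : ℝ) ≤ A * ((2 : ℝ) ^ (d + 1)) ^ C) :
    Tendsto (fun d : ℕ => lamSeq d ^ (4 * C + 1) * (A * ((2 : ℝ) ^ (d + 1)) ^ C)) atTop
      (nhds 0) := by
  have hq : ((5 / 6 : ℝ) ^ 4 * 2) < 1 := by norm_num
  have hq0 : (0 : ℝ) ≤ (5 / 6 : ℝ) ^ 4 * 2 := by norm_num
  have hlim0 : Tendsto (fun d : ℕ => |A| * 3 ^ (4 * C + 1) * (5 / 6 : ℝ) ^ (d + 1)) atTop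
      (nhds 0) := by
    have h1 : Tendsto (fun d : ℕ => (5 / 6 : ℝ) ^ (d + 1)) atTop (nhds 0) :=
      (tendsto_pow_atTop_nhds_zero_of_lt_one (by norm_num) (by norm_num)).comp
        (tendsto_add_atTop_nat 1)
    simpa using h1.const_mul (|A| * 3 ^ (4 * C + 1))
  refine squeeze_zero' ?_ ?_ hlim0
  · filter_upwards [hA0] with d hd
    exact mul_nonneg (pow_nonneg (lamSeq_nonneg d) _) hd
  · filter_upwards [hA0] with d hd
    have hl : lamSeq d ^ (4 * C + 1) ≤ (3 * (5 / 6 : ℝ) ^ (d + 1)) ^ (4 * C + 1) :=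
      pow_le_pow_left₀ (lamSeq_nonneg d) (lamSeq_le d) _
    have hAle : A * ((2 : ℝ) ^ (d + 1)) ^ C ≤ |A| * ((2 : ℝ) ^ (d + 1)) ^ C :=
      mul_le_mul_of_nonneg_right (le_abs_self A) (by positivity)
    have hx : ((5 / 6 : ℝ) ^ 4 * 2) ^ (C * (d + 1)) ≤ 1 := pow_le_one₀ hq0 hq.le
    calc lamSeq d ^ (4 * C + 1) * (A * ((2 : ℝ) ^ (d + 1)) ^ C)
        ≤ (3 * (5 / 6 : ℝ) ^ (d + 1)) ^ (4 * C + 1) * (|A| * ((2 : ℝ) ^ (d + 1)) ^ C) :=
          mul_le_mul hl hAle hd (by positivity)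
      _ = |A| * 3 ^ (4 * C + 1) * (5 / 6 : ℝ) ^ (d + 1) *
            ((5 / 6 : ℝ) ^ 4 * 2) ^ (C * (d + 1)) := by
          rw [mul_pow, mul_pow, ← pow_mul, ← pow_mul, ← pow_mul]
          have e1 : (d + 1) * (4 * C + 1) = 4 * (C * (d + 1)) + (d + 1) := by ring
          have e2 : (d + 1) * C = C * (d + 1) := by ring
          rw [e1, e2, pow_add]
          ring
      _ ≤ |A| * 3 ^ (4 * C + 1) * (5 / 6 : ℝ) ^ (d + 1) * 1 :=
          mul_le_mul_of_nonneg_left hx (by positivity)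
      _ = |A| * 3 ^ (4 * C + 1) * (5 / 6 : ℝ) ^ (d + 1) := by ring

open Filter in
/-- END GAME, polynomial form: if after `K0` passes the chi-square distance is at most
`A * n ^ C` (`n = 2 ^ (d + 1)` the number of cards) for all large `d`, and `K0 + 4 * C + 1 ≤ 1600`,
then the statement of S0222 holds. -/
theorem s0222_of_poly_chi2_of_step (hS : ∀ d : ℕ, StepStmt (Fin (2 * 2 ^ d)))
    (K0 C : ℕ) (hK : K0 + (4 * C + 1) ≤ 1600) (A : ℝ)
    (hB : ∀ᶠ d in atTop, chi2 (2 ^ d) (K0 * (d + 1)) ≤ A * ((2 : ℝ) ^ (d + 1)) ^ C) :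
    Tendsto (fun d : ℕ => tvFromUniform (2 ^ d) (1600 * (d + 1))) atTop (nhds 0) := by
  have hA0 : ∀ᶠ d in atTop, (0 : ℝ) ≤ A * ((2 : ℝ) ^ (d + 1)) ^ C := by
    filter_upwards [hB] with d hd
    exact (chi2_nonneg _ _).trans hd
  exact s0222_of_chi2_bound_of_step hS K0 (4 * C + 1) hK
    (fun d => A * ((2 : ℝ) ^ (d + 1)) ^ C) hB (tendsto_lamSeq_pow_mul_poly C A hA0)

/-! ### From the two leaves at positive sizes -/

theorem step_of_pos (hJ : ∀ n : ℕ, 0 < n → JohnsonStmt (Fin n))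
    (hA : ∀ n : ℕ, 0 < n → LemmaAStmt (Fin n)) (d : ℕ) : StepStmt (Fin (2 * 2 ^ d)) :=
  stepStmt_of (hJ _ (by positivity)) (hA _ (by positivity))

theorem gap' (hJ : ∀ n : ℕ, 0 < n → JohnsonStmt (Fin n))
    (hA : ∀ n : ℕ, 0 < n → LemmaAStmt (Fin n)) (d : ℕ) :
    Contracts (2 ^ d) (d + 1) (lamSeq d) ∧ SingleUniform (2 ^ d) (d + 1) :=
  gap_of_step (step_of_pos hJ hA) d

theorem gap_geometric' (hJ : ∀ n : ℕ, 0 < n → JohnsonStmt (Fin n))
    (hA : ∀ n : ℕ, 0 < n → LemmaAStmt (Fin n)) (d : ℕ) :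
    Contracts (2 ^ d) (d + 1) (3 * (5 / 6 : ℝ) ^ (d + 1)) :=
  gap_geometric_of_step (step_of_pos hJ hA) d

theorem chi2_passes' (hJ : ∀ n : ℕ, 0 < n → JohnsonStmt (Fin n))
    (hA : ∀ n : ℕ, 0 < n → LemmaAStmt (Fin n)) (d K0 J : ℕ) :
    chi2 (2 ^ d) ((K0 + J) * (d + 1)) ≤ lamSeq d ^ J * chi2 (2 ^ d) (K0 * (d + 1)) :=
  chi2_passes_of_step (step_of_pos hJ hA) d K0 J

open Filter in
theorem s0222_of_chi2_bound' (hJ : ∀ n : ℕ, 0 < n → JohnsonStmt (Fin n))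
    (hA : ∀ n : ℕ, 0 < n → LemmaAStmt (Fin n)) (K0 J : ℕ) (hK : K0 + J ≤ 1600) (B : ℕ → ℝ)
    (hB : ∀ᶠ d in atTop, chi2 (2 ^ d) (K0 * (d + 1)) ≤ B d)
    (hlim : Tendsto (fun d : ℕ => lamSeq d ^ J * B d) atTop (nhds 0)) :
    Tendsto (fun d : ℕ => tvFromUniform (2 ^ d) (1600 * (d + 1))) atTop (nhds 0) :=
  s0222_of_chi2_bound_of_step (step_of_pos hJ hA) K0 J hK B hB hlim

open Filter in
theorem s0222_of_poly_chi2' (hJ : ∀ n : ℕ, 0 < n → JohnsonStmt (Fin n))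
    (hA : ∀ n : ℕ, 0 < n → LemmaAStmt (Fin n)) (K0 C : ℕ) (hK : K0 + (4 * C + 1) ≤ 1600) (A : ℝ)
    (hB : ∀ᶠ d in atTop, chi2 (2 ^ d) (K0 * (d + 1)) ≤ A * ((2 : ℝ) ^ (d + 1)) ^ C) :
    Tendsto (fun d : ℕ => tvFromUniform (2 ^ d) (1600 * (d + 1))) atTop (nhds 0) :=
  s0222_of_poly_chi2_of_step (step_of_pos hJ hA) K0 C hK A hB

/-! ### From the two leaves for every nonempty finite type of columns -/

theorem step_of_nonempty
    (hJ : ∀ (ι : Type) [Fintype ι] [DecidableEq ι] [Nonempty ι], JohnsonStmt ι)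
    (hA : ∀ (ι : Type) [Fintype ι] [DecidableEq ι] [Nonempty ι], LemmaAStmt ι) (d : ℕ) :
    StepStmt (Fin (2 * 2 ^ d)) := by
  have : NeZero (2 * 2 ^ d) := ⟨by positivity⟩
  exact stepStmt_of (hJ _) (hA _)

open Filter in
theorem s0222_of_poly_chi2_of_nonempty
    (hJ : ∀ (ι : Type) [Fintype ι] [DecidableEq ι] [Nonempty ι], JohnsonStmt ι)
    (hA : ∀ (ι : Type) [Fintype ι] [DecidableEq ι] [Nonempty ι], LemmaAStmt ι)
    (K0 C : ℕ) (hK : K0 + (4 * C + 1) ≤ 1600) (A : ℝ)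
    (hB : ∀ᶠ d in atTop, chi2 (2 ^ d) (K0 * (d + 1)) ≤ A * ((2 : ℝ) ^ (d + 1)) ^ C) :
    Tendsto (fun d : ℕ => tvFromUniform (2 ^ d) (1600 * (d + 1))) atTop (nhds 0) :=
  s0222_of_poly_chi2_of_step (step_of_nonempty hJ hA) K0 C hK A hB

end Crest.Agent.Helper13.Gap
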