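import Crest.Agent.Helper3.Shuffle.Conv
import Crest.Agent.Helper13.Shuffle.GapDefs

/-!
# S0222 pre-build (GAP), helper13: averaging operators over right translations

Generic lemmas about the operators `opR ρ ν f c = ∑ g, ν g * f (c * ρ g)` on functions on a finite
group `H`, for a homomorphism `ρ : G →* H` from a finite group `G` and weights `ν : G → ℝ`.
-/

set_option autoImplicit false
set_option linter.unusedSectionVars false

namespace Crest.Agent.Helper13.Gap

open Finset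

section Generic

variable {G G' H : Type*} [Group G] [Fintype G] [Group G'] [Fintype G'] [Group H] [Fintype H]

theorem sum_mulRight (k : H) (F : H → ℝ) : ∑ c, F (c * k) = ∑ c, F c :=
  Equiv.sum_comp (Equiv.mulRight k) F

theorem sum_mulLeft (k : H) (F : H → ℝ) : ∑ c, F (k * c) = ∑ c, F c :=
  Equiv.sum_comp (Equiv.mulLeft k) F

theorem sum_inv' (F : H → ℝ) : ∑ c, F c⁻¹ = ∑ c, F c :=
  Equiv.sum_comp (Equiv.inv H) F

/-- Averaging over the right translations by `ρ g` with weights `ν g`. -/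
noncomputable def opR (ρ : G →* H) (ν : G → ℝ) (f : H → ℝ) (c : H) : ℝ :=
  ∑ g : G, ν g * f (c * ρ g)

/-- The uniform weights. -/
noncomputable def unif (G : Type*) [Fintype G] : G → ℝ := fun _ => 1 / (Fintype.card G : ℝ)

theorem unif_nonneg (g : G) : 0 ≤ unif G g := by
  unfold unif
  positivity

theorem sum_unif : ∑ g : G, unif G g = 1 := by
  unfold unif
  rw [Finset.sum_const, Finset.card_univ, nsmul_eq_mul]
  have h : (Fintype.card G : ℝ) ≠ 0 := by
    have := Fintype.card_pos (α := G)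
    positivity
  field_simp

theorem opR_add (ρ : G →* H) (ν : G → ℝ) (f f' : H → ℝ) :
    opR ρ ν (f + f') = opR ρ ν f + opR ρ ν f' := by
  funext c
  simp only [opR, Pi.add_apply, mul_add, Finset.sum_add_distrib]

theorem opR_sub (ρ : G →* H) (ν : G → ℝ) (f f' : H → ℝ) :
    opR ρ ν (f - f') = opR ρ ν f - opR ρ ν f' := by
  funext c
  simp only [opR, Pi.sub_apply, mul_sub, Finset.sum_sub_distrib]

theorem opR_zero (ρ : G →* H) (ν : G → ℝ) : opR ρ ν (0 : H → ℝ) = 0 := by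
  funext c
  simp [opR]

theorem sum_opR (ρ : G →* H) (ν : G → ℝ) (f : H → ℝ) :
    ∑ c, opR ρ ν f c = (∑ g, ν g) * ∑ c, f c := by
  unfold opR
  rw [Finset.sum_comm, Finset.sum_mul]
  apply Finset.sum_congr rfl
  intro g _
  rw [← Finset.mul_sum, sum_mulRight (ρ g) f]

/-- The uniform average is invariant under the translations. -/
theorem opR_unif_inv (ρ : G →* H) (f : H → ℝ) (k : G) (c : H) :
    opR ρ (unif G) f (c * ρ k) = opR ρ (unif G) f c := by
  have h := sum_mulLeft k (fun g => unif G g * f (c * ρ g))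
  unfold opR
  rw [← h]
  apply Finset.sum_congr rfl
  intro g _
  rw [map_mul, mul_assoc]
  rfl

/-- An invariant function is fixed by every average with total weight one. -/
theorem opR_of_inv (ρ : G →* H) (ν : G → ℝ) (hν : ∑ g, ν g = 1) (f : H → ℝ)
    (hf : ∀ (g : G) (c : H), f (c * ρ g) = f c) : opR ρ ν f = f := by
  funext c
  unfold opR
  simp_rw [hf]
  rw [← Finset.sum_mul, hν, one_mul]

theorem opR_absorb (ρ : G →* H) (ν : G → ℝ) (hν : ∑ g, ν g = 1) (f : H → ℝ) :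
    opR ρ ν (opR ρ (unif G) f) = opR ρ (unif G) f :=
  opR_of_inv ρ ν hν _ (fun g c => opR_unif_inv ρ f g c)

theorem opR_unif_idem (ρ : G →* H) (f : H → ℝ) :
    opR ρ (unif G) (opR ρ (unif G) f) = opR ρ (unif G) f :=
  opR_absorb ρ (unif G) sum_unif f

/-- The uniform average is self-adjoint. -/
theorem opR_unif_selfadj (ρ : G →* H) (f g : H → ℝ) :
    ∑ c, opR ρ (unif G) f c * g c = ∑ c, f c * opR ρ (unif G) g c := by
  unfold opR
  simp_rw [Finset.sum_mul, Finset.mul_sum]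
  rw [Finset.sum_comm]
  have h1 : ∀ k : G, ∑ c : H, unif G k * f (c * ρ k) * g c =
      ∑ c : H, f c * (unif G k⁻¹ * g (c * ρ k⁻¹)) := by
    intro k
    have h := sum_mulRight (ρ k) (fun c => f c * (unif G k⁻¹ * g (c * ρ k⁻¹)))
    rw [← h]
    apply Finset.sum_congr rfl
    intro c _
    have e : c * ρ k * ρ k⁻¹ = c := by
      rw [mul_assoc, ← map_mul, mul_inv_cancel, map_one, mul_one]
    rw [e]
    have e2 : unif G k⁻¹ = unif G k := rfl
    rw [e2]
    ring
  simp_rw [h1]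
  rw [Finset.sum_comm]
  apply Finset.sum_congr rfl
  intro c _
  exact sum_inv' (fun k : G => f c * (unif G k * g (c * ρ k)))

/-- Pythagoras for the uniform average. -/
theorem opR_unif_pyth (ρ : G →* H) (f : H → ℝ) :
    ∑ c, (f c) ^ 2 =
      ∑ c, (opR ρ (unif G) f c) ^ 2 + ∑ c, (f c - opR ρ (unif G) f c) ^ 2 := by
  have h1 : ∑ c, opR ρ (unif G) f c * opR ρ (unif G) f c = ∑ c, f c * opR ρ (unif G) f c := by
    rw [opR_unif_selfadj ρ f (opR ρ (unif G) f), opR_unif_idem]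
  have h2 : ∑ c, (f c - opR ρ (unif G) f c) ^ 2 =
      ∑ c, (f c) ^ 2 - 2 * ∑ c, f c * opR ρ (unif G) f c +
        ∑ c, opR ρ (unif G) f c * opR ρ (unif G) f c := by
    rw [Finset.mul_sum, ← Finset.sum_sub_distrib, ← Finset.sum_add_distrib]
    apply Finset.sum_congr rfl
    intro c _
    ring
  have h3 : ∑ c, (opR ρ (unif G) f c) ^ 2 = ∑ c, opR ρ (unif G) f c * opR ρ (unif G) f c := by
    apply Finset.sum_congr rfl
    intro c _
    ring
  rw [h2, h3, h1]
  ring

/-- Averages with nonnegative weights of total mass one are `L²` contractions. -/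
theorem opR_sq_le (ρ : G →* H) (ν : G → ℝ) (hν0 : ∀ g, 0 ≤ ν g) (hν : ∑ g, ν g = 1)
    (f : H → ℝ) : ∑ c, (opR ρ ν f c) ^ 2 ≤ ∑ c, (f c) ^ 2 := by
  have h := Crest.Agent.Helper3.Shuffle.sum_sq_mix_le ν hν0
    (fun g : G => Equiv.mulRight (ρ g)) f
  rw [hν, one_pow, one_mul] at h
  exact h

/-- Transfer of a contraction on `G` to the fibres of the action. -/
theorem opR_contract (ρ : G →* H) (ν : G → ℝ) (lam : ℝ)
    (H2 : ∀ ψ : G → ℝ, ∑ g, ψ g = 0 →
      ∑ g, (∑ σ, ν σ * ψ (g * σ)) ^ 2 ≤ lam * ∑ g, (ψ g) ^ 2)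
    (h : H → ℝ) (hh : ∀ c : H, ∑ g : G, h (c * ρ g) = 0) :
    ∑ c, (opR ρ ν h c) ^ 2 ≤ lam * ∑ c, (h c) ^ 2 := by
  have key : ∀ F : H → ℝ, (Fintype.card G : ℝ) * ∑ c, F c = ∑ c, ∑ g : G, F (c * ρ g) := by
    intro F
    rw [Finset.sum_comm]
    simp_rw [sum_mulRight _ F]
    rw [Finset.sum_const, Finset.card_univ, nsmul_eq_mul]
  have hc : ∀ c : H, ∑ g : G, (opR ρ ν h (c * ρ g)) ^ 2 ≤ lam * ∑ g : G, (h (c * ρ g)) ^ 2 := by
    intro c
    have := H2 (fun g => h (c * ρ g)) (hh c)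
    refine le_trans (le_of_eq ?_) this
    apply Finset.sum_congr rfl
    intro g _
    unfold opR
    congr 1
    apply Finset.sum_congr rfl
    intro σ _
    rw [map_mul, mul_assoc]
  have hpos : (0 : ℝ) < (Fintype.card G : ℝ) := by
    have := Fintype.card_pos (α := G)
    positivity
  have h1 : (Fintype.card G : ℝ) * ∑ c, (opR ρ ν h c) ^ 2 ≤
      (Fintype.card G : ℝ) * (lam * ∑ c, (h c) ^ 2) := by
    rw [key (fun c => (opR ρ ν h c) ^ 2)]
    calc ∑ c, ∑ g : G, (opR ρ ν h (c * ρ g)) ^ 2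
        ≤ ∑ c, lam * ∑ g : G, (h (c * ρ g)) ^ 2 := Finset.sum_le_sum (fun c _ => hc c)
      _ = lam * ∑ c, ∑ g : G, (h (c * ρ g)) ^ 2 := by rw [Finset.mul_sum]
      _ = lam * ((Fintype.card G : ℝ) * ∑ c, (h c) ^ 2) := by rw [key (fun c => (h c) ^ 2)]
      _ = (Fintype.card G : ℝ) * (lam * ∑ c, (h c) ^ 2) := by ring
  exact le_of_mul_le_mul_left h1 hpos

/-- Averages over commuting families of translations commute. -/
theorem opR_comm (ρ : G →* H) (ρ' : G' →* H) (hcomm : ∀ g g', ρ g * ρ' g' = ρ' g' * ρ g)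
    (μ : G → ℝ) (ν : G' → ℝ) (f : H → ℝ) :
    opR ρ μ (opR ρ' ν f) = opR ρ' ν (opR ρ μ f) := by
  funext c
  unfold opR
  simp_rw [Finset.mul_sum]
  rw [Finset.sum_comm]
  apply Finset.sum_congr rfl
  intro g' _
  apply Finset.sum_congr rfl
  intro g _
  rw [mul_assoc c, hcomm, ← mul_assoc c]
  ring

/-- An average over `ρ` of a `ρ'`-invariant function is `ρ'`-invariant, if the families commute. -/
theorem opR_inv_of_comm (ρ : G →* H) (ρ' : G' →* H) (hcomm : ∀ g g', ρ g * ρ' g' = ρ' g' * ρ g)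
    (ν : G → ℝ) (f : H → ℝ) (hf : ∀ (g' : G') (c : H), f (c * ρ' g') = f c)
    (g' : G') (c : H) : opR ρ ν f (c * ρ' g') = opR ρ ν f c := by
  unfold opR
  apply Finset.sum_congr rfl
  intro g _
  rw [mul_assoc c, ← hcomm, ← mul_assoc c, hf]

end Generic

end Crest.Agent.Helper13.Gap
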