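import Crest.Agent.Helper3.Shuffle.Conv
import Crest.Agent.Helper13.Shuffle.GapDefs

/-!
# S0222 (Thorp shuffle) — Lean pre-build of GAP: interface with the shuffle of `Def_Shuffle`

`StructStmt d` (work package S): one pass of the deck of `4 * 2 ^ d` cards (`d + 2` shuffles) is
"two independent passes of the decks of `2 * 2 ^ d` cards formed by the even and by the odd
positions (`d + 1` shuffles each), followed by the column swaps".
`GapStmt d lam` : the target, in the form required by `Helper3.Shuffle.chi2_iterate`.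
-/

set_option autoImplicit false

namespace Crest.Agent.Helper13.Gap

open Crest.ProbabilityR.Shuffle Crest.Agent.Helper13.Shuffle Crest.Agent.Helper3.Shuffle

/-- Position `x` of a deck of `2 * M` cards ↦ (column `x / 2`, row `x % 2 = 1`). -/
def posEquiv (M : ℕ) : Fin (2 * M) ≃ Fin M × Bool where
  toFun x := (⟨x.val / 2, by have := x.isLt; omega⟩, decide (x.val % 2 = 1))
  invFun p := ⟨2 * p.1.val + (if p.2 then 1 else 0), by have := p.1.isLt; split <;> omega⟩
  left_inv := by
    intro x
    apply Fin.ext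
    simp only
    by_cases h : x.val % 2 = 1
    · simp only [h, decide_true, if_true]; omega
    · simp only [h, decide_false]; simp; omega
  right_inv := by
    rintro ⟨y, b⟩
    cases b
    · simp only [Bool.false_eq_true, if_false, add_zero]
      refine Prod.ext (Fin.ext ?_) ?_
      · simp
      · simp
    · simp only [if_true]
      refine Prod.ext (Fin.ext ?_) ?_
      · simp only; omega
      · simp only [decide_eq_true_eq]; omega

/-- The permutation of the `2 * M` positions "permute the even positions by `σ0` and the odd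
positions by `σ1` (as decks of `M` cards), then swap the pairs `{2u, 2u+1}` with `c u = true`":
`2 w + e ↦ 2 σ_e(w) + (e xor c (σ_e w))`. -/
def combine (M : ℕ) (σ0 σ1 : Equiv.Perm (Fin M)) (c : Fin M → Bool) : Equiv.Perm (Fin (2 * M)) :=
  (posEquiv M).symm.permCongr (swapE c * rowsE σ0 σ1)

theorem combine_apply (M : ℕ) (σ0 σ1 : Equiv.Perm (Fin M)) (c : Fin M → Bool) (x : Fin (2 * M)) :
    combine M σ0 σ1 c x = (posEquiv M).symm ((swapE c * rowsE σ0 σ1) (posEquiv M x)) := rfl

/-- WORK PACKAGE S (structure of one pass). -/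
def StructStmt (d : ℕ) : Prop :=
  ∀ F : Equiv.Perm (Fin (2 * (2 * 2 ^ d))) → ℝ,
    expect (2 * 2 ^ d) (d + 2) F =
      ∑ σ0 : Equiv.Perm (Fin (2 * 2 ^ d)), ∑ σ1 : Equiv.Perm (Fin (2 * 2 ^ d)),
        ∑ c : Fin (2 * 2 ^ d) → Bool,
          law (2 ^ d) (d + 1) σ0 * law (2 ^ d) (d + 1) σ1 *
            (F (combine (2 * 2 ^ d) σ0 σ1 c) / 2 ^ (2 * 2 ^ d))

/-- The target: one pass (`d + 1` shuffles of `2 * 2 ^ d` cards) contracts the squared `L²` norm of
mean-zero functions by `lam`; this is the hypothesis of `Helper3.Shuffle.chi2_iterate`. -/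
def GapStmt (d : ℕ) (lam : ℝ) : Prop :=
  ∀ ψ : Equiv.Perm (Fin (2 * 2 ^ d)) → ℝ, ∑ g, ψ g = 0 →
    ∑ g, (∑ k, law (2 ^ d) (d + 1) k * ψ (k⁻¹ * g)) ^ 2 ≤ lam * ∑ g, (ψ g) ^ 2

end Crest.Agent.Helper13.Gap
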