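import Crest.Agent.Helper13.Shuffle.GapFinal2
import Crest.Agent.Helper99.Shuffle.Johnson
import Crest.Agent.Helper82.Shuffle.LemmaAFinal

/-!
# S0222 (Thorp shuffle): GAP, unconditional, and the end game with SPREAD as the only hypothesis

With the Johnson bound (helper99; a second proof by helper2) and Lemma A (helper82, helper47,
helper72, helper75, helper97) the chain of `GapFinal2` has no hypothesis left except the bound
on the chi-square distance after a fixed number of passes ("SPREAD"), which is NOT proved.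

* `gap_uncond` : one pass of `2 * 2 ^ d` cards contracts mean-zero functions (squared `L²` norm) by
  `lamSeq d ≤ 3 * (5 / 6) ^ (d + 1)`, and makes every single card uniform;
* `chi2_passes_uncond` : `chi2 (2^d) ((K0 + J)(d+1)) ≤ lamSeq d ^ J * chi2 (2^d) (K0 (d+1))`;
* `s0222_of_poly_chi2_uncond` : if eventually `chi2 (2^d) (K0 (d+1)) ≤ A * n ^ C`, `n = 2^(d+1)`,
  with `K0 + (4 C + 1) ≤ 1600`, then the limit of S0222 holds.
-/

set_option autoImplicit false

namespace Crest.Agent.Helper13.Gap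

open Crest.ProbabilityR.Shuffle Crest.Agent.Helper3.Shuffle
open Crest.Agent.Helper54.Shuffle (Contracts SingleUniform)

/-- The recursion step at every size `2 * 2 ^ d`, unconditionally. -/
theorem stepStmt_uncond (d : ℕ) : StepStmt (Fin (2 * 2 ^ d)) :=
  step_of_pos (fun _ _ => Crest.Agent.Helper99.Johnson.johnson)
    Crest.Agent.Helper82.Shuffle.lemmaA_fin d

/-- GAP, unconditional. -/
theorem gap_uncond (d : ℕ) :
    Contracts (2 ^ d) (d + 1) (lamSeq d) ∧ SingleUniform (2 ^ d) (d + 1) :=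
  gap_of_step stepStmt_uncond d

/-- GAP with the explicit geometric bound, unconditional. -/
theorem gap_geometric_uncond (d : ℕ) :
    Contracts (2 ^ d) (d + 1) (3 * (5 / 6 : ℝ) ^ (d + 1)) :=
  gap_geometric_of_step stepStmt_uncond d

/-- `J` further passes multiply the chi-square distance by at most `lamSeq d ^ J`. -/
theorem chi2_passes_uncond (d K0 J : ℕ) :
    chi2 (2 ^ d) ((K0 + J) * (d + 1)) ≤ lamSeq d ^ J * chi2 (2 ^ d) (K0 * (d + 1)) :=
  chi2_passes_of_step stepStmt_uncond d K0 J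

open Filter in
/-- END GAME: S0222 from any bound `B d` on the chi-square distance after `K0` passes with
`lamSeq d ^ J * B d → 0` and `K0 + J ≤ 1600`. -/
theorem s0222_of_chi2_bound_uncond (K0 J : ℕ) (hK : K0 + J ≤ 1600) (B : ℕ → ℝ)
    (hB : ∀ᶠ d in atTop, chi2 (2 ^ d) (K0 * (d + 1)) ≤ B d)
    (hlim : Tendsto (fun d : ℕ => lamSeq d ^ J * B d) atTop (nhds 0)) :
    Tendsto (fun d : ℕ => tvFromUniform (2 ^ d) (1600 * (d + 1))) atTop (nhds 0) :=
  s0222_of_chi2_bound_of_step stepStmt_uncond K0 J hK B hB hlim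

open Filter in
/-- END GAME, polynomial form: S0222 from `chi2 (2^d) (K0 (d+1)) ≤ A * n ^ C` eventually
(`n = 2 ^ (d + 1)` cards), `K0 + (4 * C + 1) ≤ 1600`. -/
theorem s0222_of_poly_chi2_uncond (K0 C : ℕ) (hK : K0 + (4 * C + 1) ≤ 1600) (A : ℝ)
    (hB : ∀ᶠ d in atTop, chi2 (2 ^ d) (K0 * (d + 1)) ≤ A * ((2 : ℝ) ^ (d + 1)) ^ C) :
    Tendsto (fun d : ℕ => tvFromUniform (2 ^ d) (1600 * (d + 1))) atTop (nhds 0) :=
  s0222_of_poly_chi2_of_step stepStmt_uncond K0 C hK A hB

end Crest.Agent.Helper13.Gap
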